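import Vale.Agent.P307.R2.H229.Tree
import Vale.Agent.P307.R2.H806.Atom
import Mathlib.SetTheory.Cardinal.Regular

/-!
Spread sets. If arbitrary sets of size `χ` can be made isolated over a big boundary, then some
closed trace of the boundary carries a model all of whose subsets of size at most `ν` are isolated:
a chain of length `ν⁺` over the fixed boundary, limits by the limit property of the closed traces.
-/

universe u

open Set Cardinal Function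

namespace Vale.Agent.P307.R2.H541.PG

variable {C : Type u} {M : PG C}

/-- Isolation is invariant. -/
theorem Isol.conj {B X E : Set C} (h : M.Isol B X E) {k : Equiv.Perm C} (hk : k ∈ M.G) :
    M.Isol (k '' B) (k '' X) (k '' E) := by
  intro g hg hgB A hA hAc
  have hA' : (k⁻¹ : Equiv.Perm C) '' A ⊆ X := by
    rintro _ ⟨a, ha, rfl⟩
    obtain ⟨x, hx, rfl⟩ := hA ha
    rw [inv_ap]
    exact hx
  obtain ⟨h', hh', h1, h2⟩ := h (k⁻¹ * g * k)
    (M.G.mul_mem (M.G.mul_mem (M.G.inv_mem hk) hg) hk) (fun b hb => by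
      rw [Equiv.Perm.mul_apply, Equiv.Perm.mul_apply, hgB (k b) (mem_image_of_mem k hb), inv_ap])
    ((k⁻¹ : Equiv.Perm C) '' A) hA' (small_image _ hAc)
  refine ⟨k * h' * k⁻¹, M.G.mul_mem (M.G.mul_mem hk hh') (M.G.inv_mem hk), fun a ha => ?_, ?_⟩
  · rw [Equiv.Perm.mul_apply, Equiv.Perm.mul_apply, h1 _ (mem_image_of_mem _ ha), ap_inv]
  · rintro _ ⟨e, he, rfl⟩
    rw [Equiv.Perm.mul_apply, Equiv.Perm.mul_apply, inv_ap, h2 e he, Equiv.Perm.mul_apply,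
      Equiv.Perm.mul_apply, ap_inv]

theorem image_inv_image (k : Equiv.Perm C) (E : Set C) : k '' ((k⁻¹ : Equiv.Perm C) '' E) = E := by
  rw [← image_comp]
  have : (k ∘ (k⁻¹ : Equiv.Perm C)) = id := by
    funext a
    exact ap_inv k a
  rw [this, image_id]

theorem inv_image_image (k : Equiv.Perm C) (E : Set C) : (k⁻¹ : Equiv.Perm C) '' (k '' E) = E := by
  rw [← image_comp]
  have : ((k⁻¹ : Equiv.Perm C) ∘ k) = id := by
    funext a
    exact inv_ap k a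
  rw [this, image_id]

/-- **Spread sets.** `Z` is the family of the closed traces of a big boundary; every set of size
`χ` over a closed trace `z` can be moved over `z` such that its small subsets are isolated over
some bigger closed trace `z'`, by small sets. Then over some closed trace there is a model all of
whose subsets of size at most `ν` are isolated. -/
theorem exists_bdd_of_chain {ν : Cardinal.{u}} (hν : ℵ₀ ≤ ν) (hνχ : ν < M.χ)
    (Z : Set (Set C))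
    (hLim : ∀ (ι : Type u) [LinearOrder ι] [WellFoundedLT ι] [Nonempty ι], #ι ≤ Order.succ ν →
      ∀ z : ι → Set C, Monotone z → (∀ i, z i ∈ Z) → ∀ f : C → C,
        (∀ i, ∃ g ∈ M.G, ∀ a ∈ z i, g a = f a) → ∃ g ∈ M.G, ∀ i, ∀ a ∈ z i, g a = f a)
    (hUZ : ∀ (ι : Type u) [LinearOrder ι] [WellFoundedLT ι] [Nonempty ι], #ι ≤ Order.succ ν →
      ∀ z : ι → Set C, Monotone z → (∀ i, z i ∈ Z) → (⋃ i, z i) ∈ Z)
    (hUS : ∀ (ι : Type u) [LinearOrder ι] [WellFoundedLT ι] [Nonempty ι], #ι ≤ Order.succ ν →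
      ∀ N : ι → Set C, Monotone N → (∀ i, N i ∈ M.S) → (⋃ i, N i) ∈ M.S)
    (hTV : ∀ z ∈ Z, ∀ z' ∈ Z, z ⊆ z' → M.TV z z')
    (hstep : ∀ z ∈ Z, ∀ E : Set C, #E ≤ M.χ → ∃ k ∈ M.G, (∀ b ∈ z, k b = b) ∧
      ∃ z' ∈ Z, z ⊆ z' ∧ ∃ N ∈ M.S, k '' E ⊆ N ∧ z' ⊆ N ∧
        ∀ e ⊆ E, #e < M.χ → ∃ B ⊆ z', #B < M.χ ∧ M.Isol B z' (k '' e))
    {z₀ : Set C} (hz₀ : z₀ ∈ Z) :
    ∃ z ∈ Z, z₀ ⊆ z ∧ ∃ N ∈ M.S, z ⊆ N ∧
      ∀ e ⊆ N, #e ≤ ν → ∃ B ⊆ z, #B < M.χ ∧ M.Isol B z e := by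
  classical
  have hreg : (Order.succ ν).IsRegular := isRegular_succ hν
  let W : Type u := (Order.succ ν).ord.ToType
  have hW : #W = Order.succ ν := mk_ord_toType _
  have hWi : ∀ i : W, #(Iio i) < Order.succ ν := fun i => by
    have h := mk_Iio_lt (α := (Order.succ ν).ord.ToType) i (by simp)
    rwa [mk_ord_toType] at h
  have hWν : ∀ i : W, #(Iio i) ≤ ν := fun i => Order.lt_succ_iff.1 (hWi i)
  have hgt : ∀ s : Set W, #s ≤ ν → ∃ x, ∀ y ∈ s, y < x := by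
    intro s hs
    rw [← not_isCofinal_iff]
    intro h
    have h1 := Order.cof_le h
    rw [Ordinal.cof_toType, hreg.cof_ord] at h1
    exact absurd h1 (not_le.2 (Order.lt_succ_iff.2 hs))
  have hWne : Nonempty W := by
    obtain ⟨x, -⟩ := hgt ∅ (by simp)
    exact ⟨x⟩
  let D : Type u := Set C × Set C × Equiv.Perm C
  have : Nonempty D := ⟨(∅, ∅, 1)⟩
  let P : W → (W → D) → Prop := fun i d => (d i).1 ∈ Z ∧ z₀ ⊆ (d i).1 ∧ (d i).2.1 ∈ M.S ∧
    (d i).2.2 ∈ M.G ∧ (∀ a ∈ (d i).1, (d i).2.2 a ∈ (d i).2.1) ∧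
    (∀ k < i, (d k).1 ⊆ (d i).1) ∧ (∀ k < i, (d k).2.1 ⊆ (d i).2.1) ∧
    (∀ k < i, ∀ a ∈ (d k).1, (d i).2.2 a = (d k).2.2 a) ∧
    (∀ k < i, ∀ e ⊆ (d k).2.1, #e < M.χ → ∃ B ⊆ (d i).2.2 '' (d i).1, #B < M.χ ∧
      M.Isol B ((d i).2.2 '' (d i).1) e)
  obtain ⟨d, hd⟩ := exists_rec P (by
    rintro i d d' hdd ⟨h1, h2, h3, h4, h5, h6, h7, h8, h9⟩
    have hi : d i = d' i := hdd i le_rfl
    have hk : ∀ k < i, d k = d' k := fun k hk => hdd k hk.le
    refine ⟨hi ▸ h1, hi ▸ h2, hi ▸ h3, hi ▸ h4, hi ▸ h5, fun k hki => ?_, fun k hki => ?_,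
      fun k hki => ?_, fun k hki => ?_⟩
    · rw [← hi, ← hk k hki]
      exact h6 k hki
    · rw [← hi, ← hk k hki]
      exact h7 k hki
    · rw [← hi, ← hk k hki]
      exact h8 k hki
    · rw [← hi, ← hk k hki]
      exact h9 k hki) (by
    intro i d hP
    -- the data before `i`
    have hpre : ∃ z ∈ Z, z₀ ⊆ z ∧ (∀ k < i, (d k).1 ⊆ z) ∧ ∃ g ∈ M.G,
        ∀ k < i, ∀ a ∈ (d k).1, g a = (d k).2.2 a := by
      by_cases hi : Nonempty (Iio i)
      · have hmono : Monotone fun k : Iio i => (d k).1 := by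
          intro k k' hkk
          rcases hkk.lt_or_eq with h | h
          · exact (hP k' k'.2).2.2.2.2.2.1 k h
          · rw [h]
        let f : C → C := fun a => if ha : ∃ k : Iio i, a ∈ (d k).1 then
          (d ha.choose).2.2 a else a
        have hf : ∀ k : Iio i, ∀ a ∈ (d k).1, f a = (d k).2.2 a := by
          intro k a ha
          have hex' : ∃ k : Iio i, a ∈ (d k).1 := ⟨k, ha⟩
          have h1 : f a = (d hex'.choose).2.2 a := dif_pos hex'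
          rw [h1]
          have hc := hex'.choose_spec
          rcases lt_trichotomy (hex'.choose : Iio i) k with h | h | h
          · exact ((hP k k.2).2.2.2.2.2.2.2.1 _ h a hc).symm
          · rw [h]
          · exact (hP _ hex'.choose.2).2.2.2.2.2.2.2.1 k h a ha
        obtain ⟨g, hg, hgf⟩ := hLim (Iio i) (hWi i).le (fun k : Iio i => (d k).1) hmono
          (fun k => (hP k k.2).1) f fun k => ⟨(d k).2.2, (hP k k.2).2.2.2.1,
            fun a ha => (hf k a ha).symm⟩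
        refine ⟨⋃ k : Iio i, (d k).1, hUZ (Iio i) (hWi i).le _ hmono fun k => (hP k k.2).1, ?_,
          fun k hk => subset_iUnion (fun k : Iio i => (d k).1) ⟨k, hk⟩, g, hg, fun k hk a ha => ?_⟩
        · obtain ⟨k⟩ := hi
          exact (hP k k.2).2.1.trans (subset_iUnion (fun k : Iio i => (d k).1) k)
        · rw [hgf ⟨k, hk⟩ a ha, hf ⟨k, hk⟩ a ha]
      · exact ⟨z₀, hz₀, Subset.rfl, fun k hk => absurd ⟨⟨k, hk⟩⟩ hi, 1, M.G.one_mem,
          fun k hk => absurd ⟨⟨k, hk⟩⟩ hi⟩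
    obtain ⟨z, hz, hz0z, hkz, g, hg, hgk⟩ := hpre
    have hE : #((g⁻¹ : Equiv.Perm C) '' (⋃ k : Iio i, (d k).2.1) : Set C) ≤ M.χ := by
      refine mk_image_le.trans ((mk_iUnion_le _).trans ((mul_le_mul' ((hWν i).trans hνχ.le)
        (ciSup_le' fun k : Iio i => (M.S_card (hP k k.2).2.2.1).le)).trans (mul_eq_self M.hχ).le))
    obtain ⟨k₁, hk₁, hk₁z, z', hz', hzz', N, hN, hEN, hz'N, hiso⟩ := hstep z hz _ hE
    have hgk₁ : g * k₁⁻¹ ∈ M.G := M.G.mul_mem hg (M.G.inv_mem hk₁)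
    have hback : ∀ E : Set C, (g * k₁⁻¹ : Equiv.Perm C) '' (k₁ '' ((g⁻¹ : Equiv.Perm C) '' E)) =
        E := by
      intro E
      have h1 : ((g * k₁⁻¹ : Equiv.Perm C) : C → C) = g ∘ (k₁⁻¹ : Equiv.Perm C) := rfl
      rw [h1, image_comp, inv_image_image, image_inv_image]
    refine ⟨(z', (g * k₁⁻¹ : Equiv.Perm C) '' N, g * k₁⁻¹), ?_⟩
    have hui : update d i ((z', (g * k₁⁻¹ : Equiv.Perm C) '' N, g * k₁⁻¹) : D) i =
        (z', (g * k₁⁻¹ : Equiv.Perm C) '' N, g * k₁⁻¹) := update_self i _ d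
    have huk : ∀ k < i, update d i ((z', (g * k₁⁻¹ : Equiv.Perm C) '' N, g * k₁⁻¹) : D) k = d k :=
      fun k hk => update_of_ne hk.ne _ d
    have hEk : ∀ k < i, (d k).2.1 ⊆ ⋃ k : Iio i, (d k).2.1 := fun k hk =>
      subset_iUnion (fun k : Iio i => (d k).2.1) ⟨k, hk⟩
    refine ⟨?_, ?_, ?_, ?_, ?_, ?_, ?_, ?_, ?_⟩
    · rw [hui]
      exact hz'
    · rw [hui]
      exact hz0z.trans hzz'
    · rw [hui]
      exact M.S_inv hgk₁ hN
    · rw [hui]
      exact hgk₁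
    · rw [hui]
      exact fun a ha => mem_image_of_mem _ (hz'N ha)
    · intro k hk
      rw [hui, huk k hk]
      exact (hkz k hk).trans hzz'
    · intro k hk
      rw [hui, huk k hk]
      have h1 := image_mono (f := (g * k₁⁻¹ : Equiv.Perm C)) hEN
      rw [hback] at h1
      exact (hEk k hk).trans h1
    · intro k hk a ha
      rw [hui]
      rw [huk k hk] at ha ⊢
      change (g * k₁⁻¹ : Equiv.Perm C) a = _
      rw [Equiv.Perm.mul_apply, fix_inv (hk₁z a (hkz k hk ha)), hgk k hk a ha]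
    · intro k hk e he hec
      rw [huk k hk] at he
      rw [hui]
      obtain ⟨B, hB, hBc, h1⟩ := hiso ((g⁻¹ : Equiv.Perm C) '' e)
        (image_mono (he.trans (hEk k hk))) (small_image _ hec)
      refine ⟨(g * k₁⁻¹ : Equiv.Perm C) '' B, image_mono hB, small_image _ hBc, ?_⟩
      have h2 := h1.conj hgk₁
      rw [hback] at h2
      exact h2)
  have hmz : Monotone fun i : W => (d i).1 := by
    intro k k' hkk
    rcases hkk.lt_or_eq with h | h
    · exact (hd k').2.2.2.2.2.1 k h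
    · rw [h]
  have hmE : Monotone fun i : W => (d i).2.1 := by
    intro k k' hkk
    rcases hkk.lt_or_eq with h | h
    · exact (hd k').2.2.2.2.2.2.1 k h
    · rw [h]
  let f : C → C := fun a => if ha : ∃ k : W, a ∈ (d k).1 then (d ha.choose).2.2 a else a
  have hf : ∀ k : W, ∀ a ∈ (d k).1, f a = (d k).2.2 a := by
    intro k a ha
    have hex' : ∃ k : W, a ∈ (d k).1 := ⟨k, ha⟩
    have h1 : f a = (d hex'.choose).2.2 a := dif_pos hex'
    rw [h1]
    have hc := hex'.choose_spec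
    rcases lt_trichotomy (hex'.choose : W) k with h | h | h
    · exact ((hd k).2.2.2.2.2.2.2.1 _ h a hc).symm
    · rw [h]
    · exact (hd _).2.2.2.2.2.2.2.1 k h a ha
  obtain ⟨g, hg, hgf⟩ := hLim W hW.le (fun k : W => (d k).1) hmz (fun k => (hd k).1) f
    fun k => ⟨(d k).2.2, (hd k).2.2.2.1, fun a ha => (hf k a ha).symm⟩
  have hgk : ∀ k : W, ∀ a ∈ (d k).1, g a = (d k).2.2 a := fun k a ha => by
    rw [hgf k a ha, hf k a ha]
  have hz : (⋃ i, (d i).1) ∈ Z := hUZ W hW.le _ hmz fun k => (hd k).1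
  have hE : (⋃ i, (d i).2.1) ∈ M.S := hUS W hW.le _ hmE fun k => (hd k).2.2.1
  refine ⟨⋃ i, (d i).1, hz, ?_, (g⁻¹ : Equiv.Perm C) '' (⋃ i, (d i).2.1),
    M.S_inv (M.G.inv_mem hg) hE, ?_, ?_⟩
  · obtain ⟨i⟩ := hWne
    exact (hd i).2.1.trans (subset_iUnion (fun i : W => (d i).1) i)
  · intro a ha
    obtain ⟨i, hi⟩ := mem_iUnion.1 ha
    refine ⟨g a, mem_iUnion.2 ⟨i, ?_⟩, inv_ap g a⟩
    rw [hgk i a hi]
    exact (hd i).2.2.2.2.1 a hi
  · intro e he hec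
    have h1 : ∀ x : e, ∃ i : W, g x.1 ∈ (d i).2.1 := by
      intro x
      obtain ⟨y, hy, hyx⟩ := he x.2
      obtain ⟨i, hi⟩ := mem_iUnion.1 hy
      refine ⟨i, ?_⟩
      rw [← hyx, ap_inv]
      exact hi
    choose ix hix using h1
    obtain ⟨i, hi⟩ := hgt (range ix) (mk_range_le.trans hec)
    obtain ⟨i', hi'⟩ := hgt {i} (by
      rw [mk_singleton]
      exact one_le_aleph0.trans hν)
    have hii' : i < i' := hi' i rfl
    have h2 : g '' e ⊆ (d i).2.1 := by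
      rintro _ ⟨x, hx, rfl⟩
      exact hmE (hi _ ⟨⟨x, hx⟩, rfl⟩).le (hix ⟨x, hx⟩)
    obtain ⟨B, hB, hBc, h3⟩ := (hd i').2.2.2.2.2.2.2.2 i hii' (g '' e) h2
      ((mk_image_le.trans hec).trans_lt hνχ)
    have h4 : (d i').2.2 '' (d i').1 = g '' (d i').1 := by
      refine image_congr fun a ha => ?_
      exact (hgk i' a ha).symm
    rw [h4] at hB h3
    have h5 := h3.conj (M.G.inv_mem hg)
    rw [inv_image_image, inv_image_image] at h5
    have hBz : (g⁻¹ : Equiv.Perm C) '' B ⊆ (d i').1 := by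
      have h6 := image_mono (f := (g⁻¹ : Equiv.Perm C)) hB
      rwa [inv_image_image] at h6
    have hsub : (d i').1 ⊆ ⋃ i, (d i).1 := subset_iUnion (fun i : W => (d i).1) i'
    exact ⟨(g⁻¹ : Equiv.Perm C) '' B, hBz.trans hsub, small_image _ hBc,
      h5.lift (hTV _ (hd i').1 _ hz hsub) hBz (small_image _ hBc)⟩

/-- **Atomic models over a boundary.** `X` is conjugate to all closed traces (containing `z₀`) of a
big boundary, and sets of size `χ` can be made isolated over the big boundary. Then there is an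
atomic model over `X`: spread sets included. -/
theorem exists_atomic_of_chain {X : Set C} (hX : #X = M.χ) {ℓ : Cardinal.{u}} (hℓ : ℓ < M.χ)
    (hχ : ℵ₀ < M.χ)
    (hT : ∀ g ∈ M.G, ∀ R ∈ M.T, (g : C → C) '' R ∈ M.T)
    (hls : ∀ N ∈ M.S, ∀ A ⊆ N, #A < M.χ → ∃ R ∈ M.T, A ⊆ R ∧ R ⊆ N ∧ #R ≤ max #A ℓ)
    (hU : ∀ R : ℕ → Set C, Monotone R → (∀ n, R n ∈ M.T) → #(⋃ n, R n : Set C) = M.χ →
      (⋃ n, R n) ∈ M.S)
    (Z : Set (Set C))
    (hLim : ∀ (ι : Type u) [LinearOrder ι] [WellFoundedLT ι] [Nonempty ι], #ι ≤ M.χ →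
      ∀ z : ι → Set C, Monotone z → (∀ i, z i ∈ Z) → ∀ f : C → C,
        (∀ i, ∃ g ∈ M.G, ∀ a ∈ z i, g a = f a) → ∃ g ∈ M.G, ∀ i, ∀ a ∈ z i, g a = f a)
    (hUZ : ∀ (ι : Type u) [LinearOrder ι] [WellFoundedLT ι] [Nonempty ι], #ι ≤ M.χ →
      ∀ z : ι → Set C, Monotone z → (∀ i, z i ∈ Z) → (⋃ i, z i) ∈ Z)
    (hUS : ∀ (ι : Type u) [LinearOrder ι] [WellFoundedLT ι] [Nonempty ι], #ι ≤ M.χ →
      ∀ N : ι → Set C, Monotone N → (∀ i, N i ∈ M.S) → (⋃ i, N i) ∈ M.S)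
    (hTV : ∀ z ∈ Z, ∀ z' ∈ Z, z ⊆ z' → M.TV z z')
    (hstep : ∀ z ∈ Z, ∀ E : Set C, #E ≤ M.χ → ∃ k ∈ M.G, (∀ b ∈ z, k b = b) ∧
      ∃ z' ∈ Z, z ⊆ z' ∧ ∃ N ∈ M.S, k '' E ⊆ N ∧ z' ⊆ N ∧
        ∀ e ⊆ E, #e < M.χ → ∃ B ⊆ z', #B < M.χ ∧ M.Isol B z' (k '' e))
    {z₀ : Set C} (hz₀ : z₀ ∈ Z) (hconj : ∀ z ∈ Z, z₀ ⊆ z → ∃ g ∈ M.G, g '' z = X) :
    ∃ N, M.Atomic N X := by
  refine exists_atomic_of_dense M hX hℓ hT hls hU fun ν hν => ?_
  have hν' : max ν ℵ₀ < M.χ := max_lt hν hχ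
  have hs : Order.succ (max ν ℵ₀) ≤ M.χ := Order.succ_le_of_lt hν'
  obtain ⟨z, hz, hz0, N, hN, hzN, hiso⟩ := exists_bdd_of_chain (M := M) (le_max_right ν ℵ₀) hν' Z
    (fun ι _ _ _ hι => hLim ι (hι.trans hs)) (fun ι _ _ _ hι => hUZ ι (hι.trans hs))
    (fun ι _ _ _ hι => hUS ι (hι.trans hs)) hTV hstep hz₀
  obtain ⟨g, hg, hgz⟩ := hconj z hz hz0
  refine ⟨g '' N, M.S_inv hg hN, ?_, fun E hE hEc => ?_⟩
  · rw [← hgz]
    exact image_mono hzN
  · have hE' : (g⁻¹ : Equiv.Perm C) '' E ⊆ N := by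
      have h6 := image_mono (f := (g⁻¹ : Equiv.Perm C)) hE
      rwa [inv_image_image] at h6
    obtain ⟨B, hB, hBc, h1⟩ := hiso _ hE' (mk_image_le.trans (hEc.trans (le_max_left _ _)))
    refine ⟨g '' B, ?_, small_image _ hBc, ?_⟩
    · rw [← hgz]
      exact image_mono hB
    · have h2 := h1.conj hg
      rwa [hgz, image_inv_image] at h2

end Vale.Agent.P307.R2.H541.PG
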